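import Vale.Agent.P275Z.All

/-!
# P275: the `P = W` conjecture for `SL_n`

The statement `Vale.Agent.P275SF.PW` is in `Vale/Agent/P275SF/Stmt.lean`.
-/

namespace Vale.Agent.Results.P275.APWSLn

theorem result : Vale.Agent.P275SF.PW := Vale.Agent.P275Z.pw

end Vale.Agent.Results.P275.APWSLn
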